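import Vale.Agent.P181.MD.Spec

/-!
# P181, MD+ (helper112, board 17143): `b ≥ (1 + δ) a` and a long third row, the literals
-/

set_option autoImplicit false

namespace Vale.Agent.P181.MD.H514

open Finset Vale.Agent.P181 Vale.Agent.P181.H280 Vale.Agent.P181.H463 Vale.Agent.P181.MD

/-- **[P1]** the peel identity (proved: `Peel.lean`, `peel`) -/
def PeelStmt : Prop := ∀ (n M : ℕ) (η : Fin (n + 1) → ℕ), n ≤ M → Antitone η →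
  gt (n + 1) (M + 1) η * M.factorial =
    gt n M (fun i => η i.succ) * ∏ j ∈ range M, (η 0 - T4.ex η (j + 1) + (j + 1))

/-- **[P2]** -/
def LBD : Prop := ∀ δ : ℝ, 0 < δ → ∃ (κ : ℝ) (a0 : ℕ), 0 < κ ∧
  ∀ (a b n m N R : ℕ) (lam : Fin (n + 2) → ℕ), a0 ≤ a → (1 + δ) * a ≤ b → b ^ 50 ≤ a ^ 51 →
    n + 2 ≤ a → Antitone lam → ∑ i, lam i = a * b → 3 ≤ m → m ≤ n + 2 → m ^ 20 ≤ b →
    b ^ 8 ≤ N ^ 5 → N ^ 5 ≤ 32 * b ^ 8 →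
    (∀ i : Fin (n + 2), (i : ℕ) < m → T4.ex lam m + 2 * N ≤ lam i) → R ^ 2 ≤ a →
    (∀ i : Fin (n + 2), R ≤ (i : ℕ) → 4 * lam i ≤ T4.ex lam 1) →
    (a : ℝ) ^ (2 - κ) ≤ T4.ex lam 1 → plethMult a b (n + 2) lam ≤ plethMult b a (n + 2) lam

/-- **[P2-num]** the real inequality of `LBD` (`l = m - 2`, `x` is the second row) -/
def NumD : Prop := ∀ δ : ℝ, 0 < δ → ∃ (κ : ℝ) (a0 : ℕ), 0 < κ ∧ κ ≤ 1 / 4 ∧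
  ∀ (a b l N R x : ℕ), a0 ≤ a → (1 + δ) * a ≤ b → b ^ 50 ≤ a ^ 51 → 1 ≤ l → b ^ 8 ≤ N ^ 5 →
    R ^ 2 ≤ a → (a : ℝ) ^ (2 - κ) ≤ x →
    (((a + b).choose a : ℕ) : ℝ) * 2 ^ (l * a) * 2 ^ (2 * b) * (2 * a * b : ℝ) ^ b *
        (b : ℝ) ^ (2 * b) ≤
      (1 + (N : ℝ) / ((b - 2 : ℕ) : ℝ)) ^ (l * (b - 2 - a)) * (x : ℝ) ^ (2 * b - 3 - 2 * R)

/-- **[P3]** the theorem of this line -/
def ThirdLongD : Prop := ∀ δ : ℝ, 0 < δ → ∃ a0 : ℕ, ∀ (a b n : ℕ) (lam : Fin n → ℕ), a0 ≤ a →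
  (1 + δ) * a ≤ b → (a : ℝ) ^ (5 / 3 : ℝ) ≤ T4.ex lam 2 → plethMult a b n lam ≤ plethMult b a n lam

end Vale.Agent.P181.MD.H514
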