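import Vale.Agent.P181.H19.Gt
import Vale.Agent.P181.T4.Typ

set_option autoImplicit false

/-!
# P181, MD+ [P1]: the peel identity for the number of the semistandard tableaux
-/

namespace Vale.Agent.P181.MD.H514

open Finset Vale.Agent.P181.H463 Vale.Agent.P181.H19

lemma pad_succ {n : ℕ} (η : Fin (n + 1) → ℕ) (k : ℕ) :
    pad (fun i : Fin n => η i.succ) k = pad η (k + 1) := by
  unfold pad
  by_cases h : k < n
  · rw [dif_pos h, dif_pos (by omega : k + 1 < n + 1)]
    rfl
  · rw [dif_neg h, dif_neg (by omega)]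

lemma pad_zero {n : ℕ} (η : Fin (n + 1) → ℕ) : pad η 0 = η 0 := by
  unfold pad
  rw [dif_pos (Nat.succ_pos n)]
  rfl

lemma seqx_castSucc {n M : ℕ} (η : Fin (n + 1) → ℕ) (i : Fin M) :
    seqx η (M + 1) i.castSucc = seqx (fun i : Fin n => η i.succ) M i := by
  unfold seqx
  rw [pad_succ, Fin.val_castSucc]
  have h := i.2
  congr 2
  omega

lemma seqx_last {n M : ℕ} (η : Fin (n + 1) → ℕ) :
    seqx η (M + 1) (Fin.last M) = η 0 + M := by
  unfold seqx
  rw [Fin.val_last, Nat.add_sub_cancel, Nat.sub_self, pad_zero]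

/-- the product over the pairs, with the last index split off -/
lemma prod_pairs (M : ℕ) (x : Fin (M + 1) → ℤ) :
    ∏ i : Fin (M + 1), ∏ j ∈ Ioi i, (x j - x i) =
      (∏ i : Fin M, ∏ j ∈ Ioi i, (x j.castSucc - x i.castSucc)) *
        ∏ i : Fin M, (x (Fin.last M) - x i.castSucc) := by
  rw [Fin.prod_univ_castSucc]
  have h0 : Ioi (Fin.last M) = ∅ := by
    ext j
    simp [Fin.le_last]
  rw [h0, prod_empty, mul_one, ← prod_mul_distrib]
  refine prod_congr rfl fun i _ => ?_
  have h1 : Ioi i.castSucc = insert (Fin.last M) ((Ioi i).map Fin.castSuccEmb) := by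
    ext j
    rw [mem_Ioi, mem_insert, mem_map]
    constructor
    · intro h
      by_cases hj : j = Fin.last M
      · exact Or.inl hj
      · refine Or.inr ⟨j.castPred hj, ?_, ?_⟩
        · rw [mem_Ioi, Fin.lt_def]
          exact h
        · exact Fin.castSucc_castPred j hj
    · rintro (h | ⟨k, hk, rfl⟩)
      · rw [h]
        exact Fin.castSucc_lt_last i
      · rw [mem_Ioi] at hk
        exact Fin.castSucc_lt_castSucc_iff.2 hk
  have h2 : Fin.last M ∉ (Ioi i).map Fin.castSuccEmb := by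
    rw [mem_map]
    rintro ⟨k, _, hk⟩
    exact (Fin.castSucc_lt_last k).ne hk
  rw [h1, prod_insert h2, prod_map, mul_comm]
  rfl

/-- **[P1]** the peel identity. -/
theorem peel (n M : ℕ) (η : Fin (n + 1) → ℕ) (hn : n ≤ M) (hη : Antitone η) :
    gt (n + 1) (M + 1) η * M.factorial =
      gt n M (fun i => η i.succ) *
        ∏ j ∈ range M, (η 0 - T4.ex η (j + 1) + (j + 1)) := by
  have hη' : Antitone (fun i : Fin n => η i.succ) := fun i j h => hη (Fin.succ_le_succ_iff.2 h)
  have h1 := gt_prod (Nat.succ_le_succ hn) η hη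
  have h2 := gt_prod hn (fun i : Fin n => η i.succ) hη'
  rw [prod_pairs M (fun i => (seqx η (M + 1) i : ℤ)), Fin.prod_univ_castSucc] at h1
  have h3 : ∏ i : Fin M, ∏ j ∈ Ioi i,
      ((seqx η (M + 1) j.castSucc : ℤ) - seqx η (M + 1) i.castSucc) =
      (gt n M (fun i => η i.succ) : ℤ) * ∏ i : Fin M, ((i : ℕ).factorial : ℤ) := by
    rw [h2]
    refine prod_congr rfl fun i _ => prod_congr rfl fun j _ => ?_
    rw [seqx_castSucc, seqx_castSucc]
  rw [h3] at h1
  have h4 : ∏ i : Fin M, ((seqx η (M + 1) (Fin.last M) : ℤ) - seqx η (M + 1) i.castSucc) =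
      ((∏ j ∈ range M, (η 0 - T4.ex η (j + 1) + (j + 1)) : ℕ) : ℤ) := by
    rw [Nat.cast_prod, ← prod_range_reflect, prod_range]
    refine prod_congr rfl fun i _ => ?_
    rw [seqx_castSucc, seqx_last]
    unfold seqx
    rw [pad_succ]
    have hi := i.2
    have e1 : M - 1 - (i : ℕ) + 1 = M - i := by omega
    have e2 : T4.ex η (M - i) = pad η (M - i) := rfl
    have h5 : pad η (M - i) ≤ η 0 := by
      rw [← pad_zero η]
      exact pad_anti hη (Nat.zero_le _)
    rw [e1, e2]
    push_cast [Nat.cast_sub h5, Nat.cast_sub hi.le]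
    ring
  rw [h4] at h1
  have h6 : (0 : ℤ) < ∏ i : Fin M, ((i : ℕ).factorial : ℤ) :=
    prod_pos fun i _ => by exact_mod_cast Nat.factorial_pos _
  have h7 : ((gt (n + 1) (M + 1) η : ℤ) * M.factorial) * ∏ i : Fin M, ((i : ℕ).factorial : ℤ) =
      ((gt n M (fun i => η i.succ) : ℤ) *
        ((∏ j ∈ range M, (η 0 - T4.ex η (j + 1) + (j + 1)) : ℕ) : ℤ)) *
        ∏ i : Fin M, ((i : ℕ).factorial : ℤ) := by
    have h8 : (((Fin.last M : Fin (M + 1)) : ℕ).factorial : ℤ) = M.factorial := by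
      rw [Fin.val_last]
    rw [h8] at h1
    have h9 : ∏ i : Fin M, ((((i.castSucc : Fin (M + 1)) : ℕ).factorial : ℕ) : ℤ) =
        ∏ i : Fin M, ((i : ℕ).factorial : ℤ) := rfl
    rw [h9] at h1
    linarith
  have h10 := mul_right_cancel₀ h6.ne' h7
  exact_mod_cast h10

end Vale.Agent.P181.MD.H514
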