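import Vale.Agent.P181.MD.H514.DefsD
import Vale.Agent.P181.MD.H514.Peel
import Vale.Agent.P181.TL.H214.UpB
import Vale.Agent.P181.H539.Growth
import Vale.Agent.P181.H539.Upper

set_option autoImplicit false

/-!
# P181, MD+ [P2]: `NumD → RemStmt → MatM → DesM → LBD`
-/

namespace Vale.Agent.P181.MD.H514

open Finset Vale.Agent.P181 Vale.Agent.P181.H280 Vale.Agent.P181.H463 Vale.Agent.P181.H19
  Vale.Agent.P181.MD

lemma prodLow (x R K : ℕ) (f : ℕ → ℕ) (h1 : ∀ j < K, 1 ≤ f j)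
    (h2 : ∀ j < K, R ≤ j → x ≤ 2 * f j) (hRK : R ≤ K) :
    x ^ (K - R) ≤ 2 ^ K * ∏ j ∈ range K, f j := by
  have e : 2 ^ K * ∏ j ∈ range K, f j = ∏ j ∈ range K, (2 * f j) := by
    rw [prod_mul_distrib, prod_const, card_range]
  rw [e, ← prod_range_mul_prod_Ico (fun j => 2 * f j) hRK]
  have h3 : 1 ≤ ∏ j ∈ range R, (2 * f j) := by
    refine one_le_prod' fun j hj => ?_
    have := h1 j ((mem_range.1 hj).trans_le hRK)
    omega
  have h4 : x ^ (K - R) ≤ ∏ j ∈ Ico R K, (2 * f j) := by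
    calc x ^ (K - R) = ∏ _j ∈ Ico R K, x := by rw [prod_const, Nat.card_Ico]
      _ ≤ _ := prod_le_prod' fun j hj => by
        rw [mem_Ico] at hj
        exact h2 j hj.2 hj.1
  calc x ^ (K - R) = 1 * x ^ (K - R) := (one_mul _).symm
    _ ≤ _ := Nat.mul_le_mul h3 h4

/-- the lower bound after two peels -/
lemma low2 (n M a R x S : ℕ) (η : Fin (n + 2) → ℕ) (T : ℕ) (hn : n ≤ M) (hη : Antitone η)
    (hS : S + (M + 1) ≤ 2 * a * (M + 2)) (hRM : R ≤ M)
    (hx0 : ∀ j, R ≤ j → x + 2 * T4.ex η j ≤ 2 * η 1)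
    (hT : gt (n + 2) (M + 2) η ≤ (S + (M + 2) - 1).choose (M + 2 - 1) *
      ((M + 2).factorial * T)) :
    gt n M (fun i : Fin n => η i.succ.succ) * x ^ (2 * M + 1 - 2 * R) ≤
      2 ^ (2 * M + 1) * (2 * a * (M + 2)) ^ (M + 1) * (M + 2) ^ (2 * M + 2) * T := by
  have hη1 : Antitone (fun i : Fin (n + 1) => η i.succ) :=
    fun i j h => hη (Fin.succ_le_succ_iff.2 h)
  have p1 := peel (n + 1) (M + 1) η (Nat.succ_le_succ hn) hη
  have p2 := peel n M (fun i : Fin (n + 1) => η i.succ) hn hη1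
  have h01 : η 1 ≤ η 0 := hη (Fin.zero_le _)
  set PB := ∏ j ∈ range (M + 1), (η 0 - T4.ex η (j + 1) + (j + 1)) with hPB
  set PA := ∏ j ∈ range M, ((fun i : Fin (n + 1) => η i.succ) 0 -
    T4.ex (fun i : Fin (n + 1) => η i.succ) (j + 1) + (j + 1)) with hPA
  have hex : ∀ j, T4.ex (fun i : Fin (n + 1) => η i.succ) j = T4.ex η (j + 1) :=
    fun j => pad_succ η j
  have hB : x ^ (M + 1 - R) ≤ 2 ^ (M + 1) * PB := by
    refine prodLow x R (M + 1) _ (fun j _ => by omega) (fun j _ hj => ?_) (by omega)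
    have := hx0 (j + 1) (by omega)
    omega
  have hA : x ^ (M - R) ≤ 2 ^ M * PA := by
    refine prodLow x R M _ (fun j _ => by omega) (fun j _ hj => ?_) hRM
    have h := hx0 (j + 1 + 1) (by omega)
    rw [hex]
    have e : (fun i : Fin (n + 1) => η i.succ) 0 = η 1 := rfl
    rw [e]
    omega
  have hAB : x ^ (2 * M + 1 - 2 * R) ≤ 2 ^ (2 * M + 1) * (PA * PB) := by
    have e : 2 * M + 1 - 2 * R = (M - R) + (M + 1 - R) := by omega
    rw [e, pow_add]
    calc x ^ (M - R) * x ^ (M + 1 - R) ≤ (2 ^ M * PA) * (2 ^ (M + 1) * PB) :=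
          Nat.mul_le_mul hA hB
      _ = 2 ^ (2 * M + 1) * (PA * PB) := by
        rw [show 2 * M + 1 = M + (M + 1) by ring, pow_add]
        ring
  have hG : gt (n + 2) (M + 2) η * ((M + 1).factorial * M.factorial) =
      gt n M (fun i : Fin n => η i.succ.succ) * (PA * PB) := by
    have e : gt n M (fun i : Fin n => (fun i : Fin (n + 1) => η i.succ) i.succ) =
      gt n M (fun i : Fin n => η i.succ.succ) := rfl
    rw [e] at p2
    calc gt (n + 2) (M + 2) η * ((M + 1).factorial * M.factorial)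
        = (gt (n + 1 + 1) (M + 1 + 1) η * (M + 1).factorial) * M.factorial := by ring
      _ = (gt (n + 1) (M + 1) (fun i : Fin (n + 1) => η i.succ) * M.factorial) * PB := by
        rw [p1]; ring
      _ = _ := by rw [p2]; ring
  have hC : (S + (M + 2) - 1).choose (M + 2 - 1) * (M + 1).factorial ≤
      (2 * a * (M + 2)) ^ (M + 1) := by
    have e1 : S + (M + 2) - 1 = S + (M + 1) := by omega
    have e2 : M + 2 - 1 = M + 1 := by omega
    rw [e1, e2, mul_comm, ← Nat.descFactorial_eq_factorial_mul_choose]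
    exact (Nat.descFactorial_le_pow _ _).trans (Nat.pow_le_pow_left hS _)
  have hf1 : (M + 2).factorial ≤ (M + 2) ^ (M + 2) := Nat.factorial_le_pow _
  have hf2 : M.factorial ≤ (M + 2) ^ M :=
    (Nat.factorial_le_pow _).trans (Nat.pow_le_pow_left (by omega) _)
  calc gt n M (fun i : Fin n => η i.succ.succ) * x ^ (2 * M + 1 - 2 * R)
      ≤ gt n M (fun i : Fin n => η i.succ.succ) * (2 ^ (2 * M + 1) * (PA * PB)) :=
        Nat.mul_le_mul le_rfl hAB
    _ = 2 ^ (2 * M + 1) * (gt n M (fun i : Fin n => η i.succ.succ) * (PA * PB)) := by ring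
    _ = 2 ^ (2 * M + 1) * (gt (n + 2) (M + 2) η * ((M + 1).factorial * M.factorial)) := by
      rw [hG]
    _ ≤ 2 ^ (2 * M + 1) * (((S + (M + 2) - 1).choose (M + 2 - 1) *
          ((M + 2).factorial * T)) * ((M + 1).factorial * M.factorial)) := by gcongr
    _ = 2 ^ (2 * M + 1) * (((S + (M + 2) - 1).choose (M + 2 - 1) * (M + 1).factorial) *
          ((M + 2).factorial * M.factorial) * T) := by ring
    _ ≤ 2 ^ (2 * M + 1) * ((2 * a * (M + 2)) ^ (M + 1) *
          ((M + 2) ^ (M + 2) * (M + 2) ^ M) * T) := by gcongr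
    _ = _ := by
      rw [← pow_add, show M + 2 + M = 2 * M + 2 by ring]
      ring

lemma fourN (a b N x : ℕ) (κ : ℝ) (hκ4 : κ ≤ 1 / 4) (ha26 : 2 ^ 26 ≤ a)
    (hb50 : b ^ 50 ≤ a ^ 51) (hN2 : N ^ 5 ≤ 32 * b ^ 8) (hx : (a : ℝ) ^ (2 - κ) ≤ x) :
    4 * N ≤ x ∧ 0 < x := by
  have ha1 : (1 : ℝ) ≤ a := by
    have : 1 ≤ a := by omega
    exact_mod_cast this
  have hx4 : a ^ 7 ≤ x ^ 4 := by
    have h1 : (a : ℝ) ^ (7 / 4 : ℝ) ≤ x :=
      (Real.rpow_le_rpow_of_exponent_le ha1 (by linarith)).trans hx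
    have h2 : ((a : ℝ) ^ (7 / 4 : ℝ)) ^ 4 ≤ (x : ℝ) ^ 4 :=
      pow_le_pow_left₀ (by positivity) h1 4
    rw [← Real.rpow_natCast, ← Real.rpow_mul (by positivity)] at h2
    have h3 : (7 / 4 : ℝ) * ((4 : ℕ) : ℝ) = ((7 : ℕ) : ℝ) := by norm_num
    rw [h3, Real.rpow_natCast] at h2
    exact_mod_cast h2
  refine ⟨?_, ?_⟩
  · have h1 : (4 * N) ^ 1000 ≤ x ^ 1000 := by
      calc (4 * N) ^ 1000 = (4 ^ 5 * N ^ 5) ^ 200 := by
            rw [← mul_pow, ← pow_mul]
        _ ≤ (4 ^ 5 * (32 * b ^ 8)) ^ 200 :=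
            Nat.pow_le_pow_left (Nat.mul_le_mul le_rfl hN2) _
        _ = (2 ^ 15 * b ^ 8) ^ 200 := by
            congr 1
            rw [← mul_assoc]
            norm_num
        _ = 2 ^ 3000 * (b ^ 50) ^ 32 := by
            rw [mul_pow, ← pow_mul, ← pow_mul, ← pow_mul]
        _ ≤ 2 ^ 3000 * (a ^ 51) ^ 32 :=
            Nat.mul_le_mul le_rfl (Nat.pow_le_pow_left hb50 _)
        _ ≤ 2 ^ (26 * 118) * (a ^ 51) ^ 32 :=
            Nat.mul_le_mul (Nat.pow_le_pow_right (by norm_num) (by norm_num)) le_rfl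
        _ ≤ a ^ 118 * (a ^ 51) ^ 32 := by
            rw [pow_mul]
            exact Nat.mul_le_mul (Nat.pow_le_pow_left ha26 _) le_rfl
        _ = (a ^ 7) ^ 250 := by
            rw [← pow_mul, ← pow_mul, ← pow_add]
        _ ≤ (x ^ 4) ^ 250 := Nat.pow_le_pow_left hx4 _
        _ = x ^ 1000 := by rw [← pow_mul]
    exact (Nat.pow_le_pow_iff_left (by norm_num)).1 h1
  · rcases Nat.eq_zero_or_pos x with h | h
    · rw [h] at hx4
      have : 0 < a ^ 7 := Nat.pow_pos (by omega)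
      omega
    · exact h

/-- the comparison, with the numbers as black boxes -/
lemma cmp_final (a M l E Ga GM P Q C x : ℕ) (g : ℝ) (hg : 0 < g) (hx : 0 < x)
    (hup : P ≤ C * (2 ^ (l * a) * Ga)) (hgrow : (Ga : ℝ) * g ≤ GM)
    (hlow : GM * x ^ E ≤ 2 ^ (2 * M + 1) * (2 * a * (M + 2)) ^ (M + 1) *
      (M + 2) ^ (2 * M + 2) * Q) (ha : 1 ≤ a)
    (hN : (C : ℝ) * 2 ^ (l * a) * 2 ^ (2 * (M + 2)) * (2 * a * ((M + 2 : ℕ) : ℝ)) ^ (M + 2) *
        ((M + 2 : ℕ) : ℝ) ^ (2 * (M + 2)) ≤ g * (x : ℝ) ^ E) : P ≤ Q := by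
  have hXpos : (0 : ℝ) < (x : ℝ) ^ E := by
    have : (0 : ℝ) < x := by exact_mod_cast hx
    positivity
  obtain ⟨X, hX⟩ : ∃ X : ℝ, X = (x : ℝ) ^ E := ⟨_, rfl⟩
  have hlow' : (GM : ℝ) * (x : ℝ) ^ E ≤ 2 ^ (2 * M + 1) *
      (2 * a * ((M + 2 : ℕ) : ℝ)) ^ (M + 1) * ((M + 2 : ℕ) : ℝ) ^ (2 * M + 2) * Q := by
    exact_mod_cast hlow
  have hup' : (P : ℝ) ≤ C * (2 ^ (l * a) * Ga) := by exact_mod_cast hup
  have ha' : (1 : ℝ) ≤ a := by exact_mod_cast ha
  have hb : (1 : ℝ) ≤ ((M + 2 : ℕ) : ℝ) := by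
    have : 1 ≤ M + 2 := by omega
    exact_mod_cast this
  obtain ⟨b, hbd⟩ : ∃ b : ℝ, b = ((M + 2 : ℕ) : ℝ) := ⟨_, rfl⟩
  rw [← hbd] at hlow' hN hb
  rw [← hX] at hlow' hN hXpos
  have hab : (1 : ℝ) ≤ 2 * a * b := by nlinarith
  have hGa : (0 : ℝ) ≤ Ga := Nat.cast_nonneg _
  have hQ : (0 : ℝ) ≤ Q := Nat.cast_nonneg _
  have hC : (0 : ℝ) ≤ C * 2 ^ (l * a) := by positivity
  have s1 : (2 : ℝ) ^ (2 * M + 1) ≤ 2 ^ (2 * (M + 2)) :=
    pow_le_pow_right₀ (by norm_num) (by omega)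
  have s2 : (2 * a * b) ^ (M + 1) ≤ (2 * a * b) ^ (M + 2) :=
    pow_le_pow_right₀ hab (by omega)
  have s3 : b ^ (2 * M + 2) ≤ b ^ (2 * (M + 2)) := pow_le_pow_right₀ hb (by omega)
  have hb0 : (0 : ℝ) ≤ b := by linarith
  have hstep : (2 : ℝ) ^ (2 * M + 1) * (2 * a * b) ^ (M + 1) * b ^ (2 * M + 2) ≤
      2 ^ (2 * (M + 2)) * (2 * a * b) ^ (M + 2) * b ^ (2 * (M + 2)) :=
    mul_le_mul (mul_le_mul s1 s2 (by positivity) (by positivity)) s3 (by positivity)
      (by positivity)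
  have h1 : (P : ℝ) * (g * X) ≤ (C * 2 ^ (l * a)) * ((Ga * g) * X) := by
    have := mul_le_mul_of_nonneg_right hup' (mul_pos hg hXpos).le
    refine this.trans_eq ?_
    ring
  have h2 : (Ga * g) * X ≤ GM * X := mul_le_mul_of_nonneg_right hgrow hXpos.le
  have h3 : (GM : ℝ) * X ≤
      (2 ^ (2 * (M + 2)) * (2 * a * b) ^ (M + 2) * b ^ (2 * (M + 2))) * Q :=
    hlow'.trans (mul_le_mul_of_nonneg_right hstep hQ)
  have h4 : (P : ℝ) * (g * X) ≤ (C * 2 ^ (l * a)) *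
      ((2 ^ (2 * (M + 2)) * (2 * a * b) ^ (M + 2) * b ^ (2 * (M + 2))) * Q) :=
    h1.trans (mul_le_mul_of_nonneg_left (h2.trans h3) hC)
  have h5 : (C * 2 ^ (l * a)) *
      ((2 ^ (2 * (M + 2)) * (2 * a * b) ^ (M + 2) * b ^ (2 * (M + 2))) * Q) ≤
      (g * X) * Q := by
    have := mul_le_mul_of_nonneg_right hN hQ
    refine le_trans (le_of_eq ?_) this
    ring
  have h6 : (P : ℝ) * (g * X) ≤ Q * (g * X) := by
    refine (h4.trans h5).trans_eq ?_
    ring
  exact_mod_cast le_of_mul_le_mul_right h6 (mul_pos hg hXpos)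

/-- `N` columns of length `m` are removed -/
lemma removal (n m N x : ℕ) (lam : Fin (n + 2) → ℕ) (hlam : Antitone lam) (hm : 2 ≤ m)
    (hgap : ∀ i : Fin (n + 2), (i : ℕ) < m → T4.ex lam m + 2 * N ≤ lam i) (hx1 : lam 1 = x) :
    ∃ η : Fin (n + 2) → ℕ, (∀ i : Fin (n + 2), (if (i : ℕ) < m then N else 0) + η i = lam i) ∧
      Antitone η ∧ (∀ i, η i ≤ lam i) ∧ η 1 = x - N := by
  have hexm : ∀ j : Fin (n + 2), m ≤ (j : ℕ) → lam j ≤ T4.ex lam m := by
    intro j hj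
    unfold T4.ex
    rw [dif_pos (lt_of_le_of_lt hj j.2)]
    exact hlam (by rw [Fin.le_def]; exact hj)
  have hsplit : ∀ i : Fin (n + 2), (if (i : ℕ) < m then N else 0) +
      (if (i : ℕ) < m then lam i - N else lam i) = lam i := by
    intro i
    by_cases h : (i : ℕ) < m
    · rw [if_pos h, if_pos h]
      have := hgap i h
      omega
    · rw [if_neg h, if_neg h, zero_add]
  refine ⟨fun i => if (i : ℕ) < m then lam i - N else lam i, hsplit, ?_, ?_, ?_⟩
  · intro i j hij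
    have hij' : (i : ℕ) ≤ j := hij
    have h0 := hlam hij
    simp only
    by_cases hj : (j : ℕ) < m
    · rw [if_pos hj, if_pos (by omega)]
      omega
    · rw [if_neg hj]
      by_cases hi : (i : ℕ) < m
      · rw [if_pos hi]
        have h1 := hgap i hi
        have h2 := hexm j (by omega)
        omega
      · rw [if_neg hi]
        exact h0
  · intro i
    have := hsplit i
    simp only
    omega
  · have h1 : ((1 : Fin (n + 2)) : ℕ) = 1 := Fin.val_one n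
    simp only
    rw [h1, if_pos (by omega), hx1]

lemma ex_tail2 (n l : ℕ) (lam : Fin (n + 2) → ℕ) :
    T4.ex (fun i : Fin n => lam i.succ.succ) l = T4.ex lam (l + 2) := by
  have h1 : T4.ex (fun i : Fin n => lam i.succ.succ) l =
      T4.ex (fun i : Fin (n + 1) => lam i.succ) (l + 1) :=
    pad_succ (fun i : Fin (n + 1) => lam i.succ) l
  rw [h1]
  exact pad_succ lam (l + 1)

/-- the upper bound and the growth -/
lemma upper (hRem : RemStmt) (a M n l N : ℕ) (lam η : Fin (n + 2) → ℕ) (hna : n ≤ a)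
    (ha : 0 < a) (haM : a ≤ M) (hln : l ≤ n) (hlam : Antitone lam) (hη : Antitone η)
    (hgap : ∀ i : Fin (n + 2), (i : ℕ) < l + 2 → T4.ex lam (l + 2) + 2 * N ≤ lam i)
    (hsplit : ∀ i : Fin (n + 2), (if (i : ℕ) < l + 2 then N else 0) + η i = lam i) :
    plethMult a (M + 2) (n + 2) lam ≤ (a + (M + 2)).choose a * (2 ^ (l * a) *
      gt n a (fun i : Fin n => η i.succ.succ)) ∧
    (gt n a (fun i : Fin n => η i.succ.succ) : ℝ) * (1 + (N : ℝ) / (M : ℝ)) ^ (l * (M - a)) ≤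
      gt n M (fun i : Fin n => η i.succ.succ) := by
  have hlam2 : Antitone (fun i : Fin n => lam i.succ.succ) :=
    fun i j h => hlam (Fin.succ_le_succ_iff.2 (Fin.succ_le_succ_iff.2 h))
  have hη2 : Antitone (fun i : Fin n => η i.succ.succ) :=
    fun i j h => hη (Fin.succ_le_succ_iff.2 (Fin.succ_le_succ_iff.2 h))
  have hup2 := H539.finrank_HW_le_gt n a hlam2
  have hrem := hRem n a l N (fun i : Fin n => lam i.succ.succ) (fun i : Fin n => η i.succ.succ)
    hna hln hlam2 hη2 (fun i => by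
      have h := hsplit i.succ.succ
      have e : ((i.succ.succ : Fin (n + 2)) : ℕ) = i + 2 := rfl
      rw [e] at h
      by_cases hi : (i : ℕ) < l
      · rw [if_pos hi]
        rw [if_pos (by omega)] at h
        exact h
      · rw [if_neg hi]
        rw [if_neg (by omega)] at h
        exact h) (fun i hi => by
      rw [ex_tail2]
      exact hgap i.succ.succ (by
        have e : ((i.succ.succ : Fin (n + 2)) : ℕ) = i + 2 := rfl
        rw [e]
        omega))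
  refine ⟨(TL.H214.upB a (M + 2) n lam).trans (Nat.mul_le_mul le_rfl (hup2.trans hrem)), ?_⟩
  exact H539.gt_growth_rows (n := n) (a := a) (N := M) (l := l) (n0 := N)
    (lam := fun i : Fin n => η i.succ.succ) hna ha haM hη2 hln (fun i hi => by
      have e : ((i.succ.succ : Fin (n + 2)) : ℕ) = i + 2 := rfl
      have h1 := hgap i.succ.succ (by rw [e]; omega)
      have h2 := hsplit i.succ.succ
      rw [e, if_pos (by omega)] at h2
      omega)

/-- **[P2]** as a step -/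
theorem lbd (hNum : NumD) (hRem : RemStmt) (hMat : MatM) (hDes : DesM) : LBD := by
  intro δ hδ
  obtain ⟨κ, a0, hκ, hκ4, hnum⟩ := hNum δ hδ
  obtain ⟨b0, hdes⟩ := hDes
  refine ⟨κ, a0 + b0 + 2 ^ 26 + ⌈2 / δ⌉₊, hκ, ?_⟩
  intro a b n m N R lam ha hab hb50 hna hlam hsum hm3 hmn hm20 hN1 hN2 hgap hR hRlow hx
  have ha0 : a0 ≤ a := by omega
  have hb0 : b0 ≤ a := by omega
  have ha26 : 2 ^ 26 ≤ a := by omega
  have ha1 : 1 ≤ a := by omega
  have hab2 : a + 2 ≤ b := by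
    have haδ : 2 / δ ≤ a := (Nat.le_ceil _).trans (by
      have : ⌈2 / δ⌉₊ ≤ a := by omega
      exact_mod_cast this)
    have h1 : (2 : ℝ) ≤ a * δ := by rwa [div_le_iff₀ hδ] at haδ
    have h2 : ((a + 2 : ℕ) : ℝ) ≤ b := by
      push_cast
      linarith
    exact_mod_cast h2
  obtain ⟨M, rfl⟩ : ∃ M, b = M + 2 := ⟨b - 2, by omega⟩
  obtain ⟨l, rfl⟩ : ∃ l, m = l + 2 := ⟨m - 2, by omega⟩
  obtain ⟨x, hxd⟩ : ∃ x, x = T4.ex lam 1 := ⟨_, rfl⟩
  rw [← hxd] at hx
  have hx1 : lam 1 = x := by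
    rw [hxd]
    unfold T4.ex
    rw [dif_pos (by omega : 1 < n + 2)]
    rfl
  obtain ⟨hNx, hxpos⟩ := fourN a (M + 2) N x κ hκ4 ha26 hb50 hN2 hx
  obtain ⟨η, hsplit, hη, hηle, hη1⟩ := removal n (l + 2) N x lam hlam (by omega) hgap hx1
  have hηsum : ∑ i, η i ≤ a * (M + 2) := by
    rw [← hsum]
    exact sum_le_sum fun i _ => hηle i
  have hD := hdes (M + 2) (l + 2) N (by omega) hm3 hm20 hN1 hN2
  have hT := hMat (n + 2) a (M + 2) N (l + 2) lam η (by omega) hD hmn hη hsplit hsum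
  have hRa : R ≤ a := by
    have : R ≤ R ^ 2 := Nat.le_self_pow (by norm_num) R
    omega
  have hS : ∑ i, η i + (M + 1) ≤ 2 * a * (M + 2) := by
    have : M + 2 ≤ a * (M + 2) := Nat.le_mul_of_pos_left _ (by omega)
    have h3 : 2 * a * (M + 2) = a * (M + 2) + a * (M + 2) := by ring
    omega
  have hlow := low2 n M a R x (∑ i, η i) η (plethMult (M + 2) a (n + 2) lam) (by omega) hη
    hS (by omega) (by
      intro j hj
      rw [hη1]
      unfold T4.ex
      by_cases h : j < n + 2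
      · rw [dif_pos h]
        have h1 := hRlow ⟨j, h⟩ hj
        have h2 := hηle ⟨j, h⟩
        rw [← hxd] at h1
        omega
      · rw [dif_neg h]
        omega) hT
  obtain ⟨hup, hgrow⟩ := upper hRem a M n l N lam η (by omega) (by omega) (by omega) (by omega)
    hlam hη hgap hsplit
  have hN := hnum a (M + 2) l N R x ha0 hab hb50 (by omega) hN1 hR hx
  have e1 : M + 2 - 2 = M := by omega
  have e2 : 2 * (M + 2) - 3 - 2 * R = 2 * M + 1 - 2 * R := by omega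
  rw [e1, e2] at hN
  have hgpos : (0 : ℝ) < (1 + (N : ℝ) / (M : ℝ)) ^ (l * (M - a)) := by positivity
  exact cmp_final a M l (2 * M + 1 - 2 * R) (gt n a (fun i : Fin n => η i.succ.succ))
    (gt n M (fun i : Fin n => η i.succ.succ)) _ _ _ x _ hgpos hxpos hup hgrow hlow ha1 hN

end Vale.Agent.P181.MD.H514
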